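import Vale.Agent.P092.H336.PullS4
import Vale.Agent.P092.H99.CL.One
import Vale.Agent.P092.H632.T2.Let

/-!
P092, TEAM P, track CL over the archimedean fields (helper142), row [CL-SYN-R]: helper336's synthesis
for concurrent lines and for collinear points, in the letters of `CL/Defs`, for the singular points
and lines of any form over `ℝ` or `ℂ`, any group acting.
-/

set_option linter.all false

open scoped InnerProductSpace LinearAlgebra.Projectivization
open Module Set Topology TopologicalSpace MeasureTheory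

namespace Vale.Agent.P092.H142.SynX

open Vale.Agent.P092.CL (Lt)
open Vale.Agent.P092.H100.Gr (Gr Fr sp sp_surj)
open Vale.Agent.P092.H336 (Prj Flg pS prj_pS nG nG_cont nG_inj pl_nG nsq_ex P1_one syn_cc syn_col)
open Vale.Agent.P092.H370.Po (SGr Inc)
open Vale.Agent.P092.H416.CL (cor cor_ne pt pt_eq pt_inj exists_vec mem_of_span)
open Vale.Agent.P092.H632.T2 (im im_inj im_cont cor_mem_im)

section prj

variable {Y Y' ι : Type*} [TopologicalSpace Y] [TopologicalSpace Y'] [Fintype ι]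

theorem prj_comp {r : ℂ} {h : ι → ι → C(Y, ℂ)} (H : Prj r h) (f : C(Y', Y))
    (hf : Function.Injective f) : Prj r fun i j => (h i j).comp f where
  st i j := by rw [← H.st i j]; rfl
  id i j x := H.id i j (f x)
  tr x := H.tr (f x)
  sep x y hxy := H.sep (f x) (f y) fun e => hxy (hf e)

end prj

section planes

variable {k : Type*} [NontriviallyNormedField k] {ι : Type*} [Fintype ι] {τ : k →+* ℂ}

theorem exists_vecG (L : Gr k ι 2) : ∃ y ∈ L.1, y ≠ 0 := by
  obtain ⟨v, rfl⟩ := sp_surj L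
  exact ⟨v.1 0, Submodule.subset_span ⟨0, rfl⟩, v.2.ne_zero 0⟩

/-- the projections of planes -/
noncomputable def nP (hτ : ∀ x, ‖τ x‖ = ‖x‖) (i j : ι) : C(Gr k ι 2, ℂ) :=
  ⟨fun l => nG τ l i j, nG_cont hτ i j⟩

theorem prj_nP (hτ : ∀ x, ‖τ x‖ = ‖x‖) : Prj 2 (nP (k := k) (ι := ι) hτ) where
  st i j := by
    ext l
    obtain ⟨y, hy, hy0⟩ := exists_vecG l
    exact (pl_nG hy0 hy).st i j
  id i j l := by
    obtain ⟨y, hy, hy0⟩ := exists_vecG l
    exact (pl_nG hy0 hy).id (nsq_ex hy0) i j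
  tr l := by
    obtain ⟨y, hy, hy0⟩ := exists_vecG l
    exact (pl_nG hy0 hy).tr (nsq_ex hy0)
  sep l l' h := by
    by_contra hc
    push Not at hc
    apply h
    refine nG_inj (τ := τ) ?_
    funext i j
    exact hc i j

end planes

section sgr

variable {n : Type} [Fintype n] [DecidableEq n] {k : Type} [NontriviallyNormedField k]
  [ProperSpace k] {σ : k →+* k} [Fact (Continuous σ)] {J : Matrix n n k} {N : ℕ} {τ : k →+* ℂ}

/-- the projections of singular points -/
noncomputable def pX (hτ : ∀ x, ‖τ x‖ = ‖x‖) (e : n ≃ Fin (N + 1)) (i j : Fin (N + 1)) :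
    C(SGr σ J 1, ℂ) :=
  (pS hτ i j).comp ⟨pt e, H416.CL.pt_cont e⟩

/-- the projections of singular lines -/
noncomputable def nX (hτ : ∀ x, ‖τ x‖ = ‖x‖) (e : n ≃ Fin (N + 1)) (i j : Fin (N + 1)) :
    C(SGr σ J 2, ℂ) :=
  (nP hτ i j).comp ⟨im e, im_cont e⟩

theorem rep_mem (e : n ≃ Fin (N + 1)) {y : SGr σ J 1} {z : SGr σ J 2} (h : Inc y z) :
    (pt e y).rep ∈ (im e z).1 := by
  obtain ⟨x, hx, hX⟩ := exists_vec y
  rw [pt_eq e hx (mem_of_span hX)]
  obtain ⟨a, ha⟩ := Projectivization.exists_smul_eq_mk_rep k (cor e x) (cor_ne hx)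
  change (Projectivization.mk k (cor e x) (cor_ne hx)).rep ∈ _
  rw [← ha]
  exact (im e z).1.smul_mem _ (cor_mem_im.2 (h (mem_of_span hX)))

/-- the flag model of the singular points and lines -/
theorem flgX (hτ : ∀ x, ‖τ x‖ = ‖x‖) (e : n ≃ Fin (N + 1)) :
    Flg (Inc : SGr σ J 1 → SGr σ J 2 → Prop) (pX hτ e) (nX hτ e) where
  hp := prj_comp (prj_pS hτ) _ (pt_inj e)
  hn := prj_comp (prj_nP hτ) _ (im_inj e)
  one y i j a b := P1_one _ i j a b
  np y z h i j := (pl_nG (pt e y).rep_nonzero (rep_mem e h)).np (nsq_ex (pt e y).rep_nonzero) i j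
  pn y z h i j := (pl_nG (pt e y).rep_nonzero (rep_mem e h)).pn (nsq_ex (pt e y).rep_nonzero) i j
  two y z h i j a b := (pl_nG (pt e y).rep_nonzero (rep_mem e h)).two i j a b

variable {S V₁ V₂ : Type} [Group S] [MeasurableSpace V₁] [MeasurableSpace V₂]
  [TopologicalSpace S] [MulAction S (SGr σ J 1)] [ContinuousConstSMul S (SGr σ J 1)]
  [MulAction S (SGr σ J 2)] [ContinuousConstSMul S (SGr σ J 2)]
  [NormedAddCommGroup V₁] [NormedAddCommGroup V₂]
  {L : Lt S (SGr σ J 1) (SGr σ J 2) V₁ V₂}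

/-- **[CL-SYN] over `ℝ` and `ℂ`**, any form, any group acting -/
theorem synStmt_arch (hτ : ∀ x, ‖τ x‖ = ‖x‖) (hIn : ∀ x l, L.In x l ↔ Inc x l)
    (hI : IsClosed {p : SGr σ J 1 × SGr σ J 2 | L.In p.1 p.2}) : H99.CL.SynStmt L := by
  classical
  rcases isEmpty_or_nonempty n with h0 | h0
  · intro K _ _ _ b l h
    have h1 : IsEmpty (SGr σ J 1) := by
      refine ⟨fun X => ?_⟩
      obtain ⟨x, hx, -⟩ := exists_vec X
      exact hx (funext fun i => isEmptyElim i)
    have h2 : ∀ u : C(SGr σ J 1, ℂ), u = 0 := fun u => by ext x; exact isEmptyElim x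
    have h3 : (1 : K →L[ℂ] K) = 0 := by
      rw [← map_one b, h2 1, map_zero]
    refine ⟨fun X U V _ _ _ a a' _ _ g => ?_, fun X U V _ _ _ a a' _ _ g => ?_⟩
    · rw [← mul_one (U * _ * V), h3, mul_zero]
    · rw [← mul_one (U * _ * V), h3, mul_zero]
  · obtain ⟨N, hN⟩ : ∃ N, Fintype.card n = N + 1 :=
      Nat.exists_eq_succ_of_ne_zero Fintype.card_ne_zero
    have e : n ≃ Fin (N + 1) := Fintype.equivFinOfCardEq hN
    have hI' : IsClosed {q : SGr σ J 1 × SGr σ J 2 | Inc q.1 q.2} := by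
      have : {q : SGr σ J 1 × SGr σ J 2 | Inc q.1 q.2} =
          {p : SGr σ J 1 × SGr σ J 2 | L.In p.1 p.2} := by
        ext p
        exact (hIn p.1 p.2).symm
      rw [this]
      exact hI
    intro K _ _ _ b l h
    have hinc : ∀ u v, H232.Nin (Inc : SGr σ J 1 → SGr σ J 2 → Prop) u v → b u * l v = 0 :=
      fun u v hn => h.inc u v fun x hx y hy hxy => hn x hx y hy ((hIn x y).1 hxy)
    exact ⟨syn_cc (flgX hτ e) hI' b l h.com hinc, syn_col (flgX hτ e) hI' b l h.com hinc⟩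

end sgr

end Vale.Agent.P092.H142.SynX
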