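import Vale.Agent.P092.H790.BaseI
import Vale.Agent.P092.H859.CLB

/-!
P092 (helper142), TEAM D, [D0-INST]: transport of the analytic input `CL.Sys`, `CL.Esc` along a
unitary, and the unitary `L²(X; 𝓗) ≃ L²(X; 𝓗')` of a unitary `𝓗 ≃ 𝓗'` with the induced
representations.
-/

set_option linter.all false

open scoped InnerProductSpace
open Filter Topology ContinuousLinearMap MeasureTheory

namespace Vale.Agent.P092.H142

open Vale.Agent.P092.H859.CL

section uc

variable {K K' : Type} [NormedAddCommGroup K] [InnerProductSpace ℂ K] [CompleteSpace K]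
  [NormedAddCommGroup K'] [InnerProductSpace ℂ K'] [CompleteSpace K']

/-- conjugation by a unitary -/
noncomputable def uc (W : K ≃ₗᵢ[ℂ] K') (T : K →L[ℂ] K) : K' →L[ℂ] K' :=
  (W : K →L[ℂ] K') ∘L T ∘L (W.symm : K' →L[ℂ] K)

variable (W : K ≃ₗᵢ[ℂ] K')

theorem uc_apply (T : K →L[ℂ] K) (ξ : K') : uc W T ξ = W (T (W.symm ξ)) := rfl

theorem uc_W (T : K →L[ℂ] K) (ξ : K) : uc W T (W ξ) = W (T ξ) := by
  rw [uc_apply, LinearIsometryEquiv.symm_apply_apply]

theorem uc_mul (S T : K →L[ℂ] K) : uc W (S * T) = uc W S * uc W T := by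
  ext ξ
  change W (S (T (W.symm ξ))) = W (S (W.symm (W (T (W.symm ξ)))))
  rw [LinearIsometryEquiv.symm_apply_apply]

theorem uc_one : uc W 1 = 1 := by
  ext ξ
  change W (W.symm ξ) = ξ
  rw [LinearIsometryEquiv.apply_symm_apply]

theorem uc_sub (S T : K →L[ℂ] K) : uc W (S - T) = uc W S - uc W T := by
  ext ξ
  change W (S (W.symm ξ) - T (W.symm ξ)) = W (S (W.symm ξ)) - W (T (W.symm ξ))
  rw [map_sub]

theorem uc_add (S T : K →L[ℂ] K) : uc W (S + T) = uc W S + uc W T := by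
  ext ξ
  change W (S (W.symm ξ) + T (W.symm ξ)) = W (S (W.symm ξ)) + W (T (W.symm ξ))
  rw [map_add]

theorem uc_smul (c : ℂ) (T : K →L[ℂ] K) : uc W (c • T) = c • uc W T := by
  ext ξ
  change W (c • T (W.symm ξ)) = c • W (T (W.symm ξ))
  rw [map_smul]

theorem uc_adj (T : K →L[ℂ] K) : adjoint (uc W T) = uc W (adjoint T) := by
  symm
  rw [ContinuousLinearMap.eq_adjoint_iff]
  intro ξ η
  obtain ⟨ξ, rfl⟩ := W.surjective ξ
  obtain ⟨η, rfl⟩ := W.surjective η
  rw [uc_W, uc_W, LinearIsometryEquiv.inner_map_map, LinearIsometryEquiv.inner_map_map,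
    adjoint_inner_left]

theorem uc_inj {S T : K →L[ℂ] K} (h : uc W S = uc W T) : S = T := by
  ext ξ
  have h1 := congrArg (fun X : K' →L[ℂ] K' => X (W ξ)) h
  simp only [uc_W] at h1
  exact W.injective h1

end uc

section sys

variable {Γ D K K' : Type} [Group Γ] [Group D] [NormedAddCommGroup K] [InnerProductSpace ℂ K]
  [CompleteSpace K] [NormedAddCommGroup K'] [InnerProductSpace ℂ K'] [CompleteSpace K']
  {m : Set Γ → (K →L[ℂ] K)} {R : D → (K →L[ℂ] K)} {Bd : Set K}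
  {ms : D → Set Γ → ℝ} {A : Subgroup D} {G1 G2 : Γ → ℝ} {l : Filter D}

/-- Transport of the analytic input. -/
theorem sys_uc (W : K ≃ₗᵢ[ℂ] K') (h : Sys m R Bd ms A G1 G2) :
    Sys (fun S => uc W (m S)) (fun v => uc W (R v)) (W '' Bd) ms A G1 G2 where
  prj :=
    { adj := fun S => by rw [uc_adj, h.prj.adj]
      inter := fun S T => by rw [h.prj.inter, uc_mul]
      compl := fun S => by rw [h.prj.compl, uc_sub, uc_one] }
  rep :=
    { mul := fun v w => by rw [h.rep.mul, uc_mul]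
      adj := fun v => by rw [uc_adj, h.rep.adj] }
  dense := by
    have h1 : (Submodule.span ℂ (W '' Bd) : Submodule ℂ K') =
        (Submodule.span ℂ Bd).map (W.toLinearEquiv : K →ₗ[ℂ] K') := by
      rw [Submodule.map_span]; rfl
    rw [h1]
    have h2 : (((Submodule.span ℂ Bd).map (W.toLinearEquiv : K →ₗ[ℂ] K') : Submodule ℂ K') :
        Set K') = W '' (Submodule.span ℂ Bd : Submodule ℂ K) := rfl
    rw [h2]
    exact W.surjective.denseRange.dense_image W.continuous h.dense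
  norm := by
    rintro _ ⟨ξ, hξ, rfl⟩
    rw [LinearIsometryEquiv.norm_map]
    exact h.norm ξ hξ
  map := by
    rintro v _ ⟨ξ, hξ, rfl⟩
    exact ⟨_, h.map v ξ hξ, (uc_W W _ _).symm⟩
  sep := by
    rintro u _ ⟨η, hη, rfl⟩ _ ⟨ζ, hζ, rfl⟩ F G P T h1 h2
    have := h.sep u η hη ζ hζ F G P T h1 h2
    simp only [uc_W, LinearIsometryEquiv.inner_map_map]
    exact this
  nrm := h.nrm
  nrv := by
    rintro _ ⟨ξ, hξ, rfl⟩ ε hε
    obtain ⟨r, hr⟩ := h.nrv ξ hξ ε hε
    refine ⟨r, fun w hw => ?_⟩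
    simp only [uc_W, LinearIsometryEquiv.norm_map]
    exact hr w hw

theorem esc_uc (W : K ≃ₗᵢ[ℂ] K') (h : Esc m R Bd A l) :
    Esc (fun S => uc W (m S)) (fun v => uc W (R v)) (W '' Bd) A l where
  mem := h.mem
  esc := by
    rintro g _ ⟨ξ, hξ, rfl⟩
    simp only [uc_W, LinearIsometryEquiv.norm_map]
    exact h.esc g ξ hξ

end sys

/-! ### The unitary of `L²(X; 𝓗)` -/

section lp

variable {X : Type} [MeasurableSpace X] (μ : Measure X) {K K' : Type} [NormedAddCommGroup K]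
  [InnerProductSpace ℂ K] [CompleteSpace K] [NormedAddCommGroup K'] [InnerProductSpace ℂ K']
  [CompleteSpace K']

/-- The unitary `L²(X; K) ≃ L²(X; K')`. -/
noncomputable def JL (J : K ≃ₗᵢ[ℂ] K') : Lp K 2 μ ≃ₗᵢ[ℂ] Lp K' 2 μ where
  toFun := (J : K →L[ℂ] K').compLpL 2 μ
  invFun := (J.symm : K' →L[ℂ] K).compLpL 2 μ
  map_add' := map_add _
  map_smul' := map_smul _
  left_inv := fun ξ => by
    refine Lp.ext ?_
    filter_upwards [coeFn_compLpL (p := 2) (μ := μ) (J.symm : K' →L[ℂ] K)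
      ((J : K →L[ℂ] K').compLpL 2 μ ξ), coeFn_compLpL (p := 2) (μ := μ) (J : K →L[ℂ] K') ξ]
      with x h1 h2
    rw [h1, h2]
    exact J.symm_apply_apply _
  right_inv := fun ξ => by
    refine Lp.ext ?_
    filter_upwards [coeFn_compLpL (p := 2) (μ := μ) (J : K →L[ℂ] K')
      ((J.symm : K' →L[ℂ] K).compLpL 2 μ ξ), coeFn_compLpL (p := 2) (μ := μ)
      (J.symm : K' →L[ℂ] K) ξ] with x h1 h2
    rw [h1, h2]
    exact J.apply_symm_apply _
  norm_map' := fun ξ => by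
    rw [Lp.norm_def, Lp.norm_def]
    congr 1
    refine eLpNorm_congr_norm_ae ?_
    filter_upwards [coeFn_compLpL (p := 2) (μ := μ) (J : K →L[ℂ] K') ξ] with x h1
    change ‖((J : K →L[ℂ] K').compLpL 2 μ ξ) x‖ = _
    rw [h1]
    exact J.norm_map _

theorem JL_ae (J : K ≃ₗᵢ[ℂ] K') (ξ : Lp K 2 μ) : ⇑(JL μ J ξ) =ᵐ[μ] fun x => J (ξ x) := by
  filter_upwards [coeFn_compLpL (p := 2) (μ := μ) (J : K →L[ℂ] K') ξ] with x h1
  change ((J : K →L[ℂ] K').compLpL 2 μ ξ) x = _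
  rw [h1]
  rfl

end lp

end Vale.Agent.P092.H142
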