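import Vale.Agent.P092.SD.Defs

/-!
P092 (helper142), TEAM D, [D0-INST]: the stabiliser of the point `[e_0]` in `SL_3(k)`: product of an
element commuting with `bw w` and an element contracted by `bw w ^ -N`.
-/

set_option linter.all false

open scoped InnerProductSpace ENNReal LinearAlgebra.Projectivization
open Filter Topology MeasureTheory TopologicalSpace

namespace Vale.Agent.P092.H142

open Vale.Agent.P092.SD

section alg

variable {k : Type} [Field k]

theorem bw_mul (a b : kˣ) : bw (a * b) = bw a * bw b := by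
  apply Subtype.ext
  rw [Matrix.SpecialLinearGroup.coe_mul]
  change Matrix.diagonal _ = Matrix.diagonal _ * Matrix.diagonal _
  rw [Matrix.diagonal_mul_diagonal]
  congr 1
  funext i
  fin_cases i
  · simp; ring
  · simp
  · simp

theorem bw_one : bw (1 : kˣ) = (1 : G3 k) := by
  apply Subtype.ext
  rw [Matrix.SpecialLinearGroup.coe_one]
  change Matrix.diagonal _ = 1
  rw [← Matrix.diagonal_one]
  congr 1
  funext i
  fin_cases i <;> simp

theorem bw_pow (a : kˣ) (N : ℕ) : bw (a ^ N) = bw a ^ N := by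
  induction N with
  | zero => rw [pow_zero, pow_zero, bw_one]
  | succ N ih => rw [pow_succ, pow_succ, bw_mul, ih]

/-- the unipotent radical of the stabiliser of `[e_0]` -/
def nr (x y : k) : G3 k := ⟨!![1, x, y; 0, 1, 0; 0, 0, 1], by simp [Matrix.det_fin_three]⟩

theorem nr_zero : nr (0 : k) 0 = 1 := by
  apply Subtype.ext
  rw [Matrix.SpecialLinearGroup.coe_one]
  change !![1, (0 : k), 0; 0, 1, 0; 0, 0, 1] = 1
  ext i j
  fin_cases i <;> fin_cases j <;> rfl

theorem nr_bw (a : kˣ) (x y : k) :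
    nr x y * bw a = bw a * nr ((a : k) ^ 3 * x) ((a : k) ^ 3 * y) := by
  apply Subtype.ext
  rw [Matrix.SpecialLinearGroup.coe_mul, Matrix.SpecialLinearGroup.coe_mul]
  change !![1, x, y; 0, 1, 0; 0, 0, 1] * Matrix.diagonal _ =
    Matrix.diagonal _ * !![1, (a : k) ^ 3 * x, (a : k) ^ 3 * y; 0, 1, 0; 0, 0, 1]
  have ha : (a : k) ≠ 0 := a.ne_zero
  ext i j
  rw [Matrix.mul_diagonal, Matrix.diagonal_mul]
  fin_cases i <;> fin_cases j <;> simp <;> field_simp

/-- Decomposition of the stabiliser of `[e_0]`. -/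
theorem stab_dec {g : G3 k} (hg : g • ept k 0 = ept k 0) (w : kˣ) :
    ∃ (v : G3 k) (x y : k), v * bw w = bw w * v ∧ g = v * nr x y := by
  -- the first column
  have h0 : g.1 1 0 = 0 ∧ g.1 2 0 = 0 := by
    have h1 : g • ept k 0 = Projectivization.mk k (g • (Pi.single 0 1 : Fin 3 → k))
      ((smul_ne_zero_iff_ne g).mpr (by
        intro h
        have := congrFun h 0
        simp at this)) := Projectivization.smul_mk g _
    rw [h1] at hg
    have h2 := (Projectivization.mk_eq_mk_iff k _ _ _ _).1 hg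
    obtain ⟨c, hc⟩ := h2
    have h3 : ∀ i, (g • (Pi.single 0 1 : Fin 3 → k)) i = g.1 i 0 := by
      intro i
      change g.1.mulVec (Pi.single 0 1) i = _
      rw [Matrix.mulVec_single_one]
      rfl
    constructor
    · rw [← h3 1, ← hc]
      simp
    · rw [← h3 2, ← hc]
      simp
  have hdet := g.2
  rw [Matrix.det_fin_three, h0.1, h0.2] at hdet
  have ha : g.1 0 0 ≠ 0 := by
    intro h
    rw [h] at hdet
    simp at hdet
  obtain ⟨v, hv⟩ : ∃ v : G3 k, v.1 = !![g.1 0 0, 0, 0; 0, g.1 1 1, g.1 1 2; 0, g.1 2 1, g.1 2 2] := by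
    refine ⟨⟨_, ?_⟩, rfl⟩
    rw [Matrix.det_fin_three]
    simp
    linear_combination hdet
  refine ⟨v, g.1 0 1 / g.1 0 0, g.1 0 2 / g.1 0 0, ?_, ?_⟩
  · apply Subtype.ext
    rw [Matrix.SpecialLinearGroup.coe_mul, Matrix.SpecialLinearGroup.coe_mul]
    change v.1 * Matrix.diagonal _ = Matrix.diagonal _ * v.1
    rw [hv]
    ext i j
    rw [Matrix.mul_diagonal, Matrix.diagonal_mul]
    fin_cases i <;> fin_cases j <;> simp <;> ring
  · apply Subtype.ext
    rw [Matrix.SpecialLinearGroup.coe_mul]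
    change g.1 = v.1 * !![1, g.1 0 1 / g.1 0 0, g.1 0 2 / g.1 0 0; 0, 1, 0; 0, 0, 1]
    rw [hv]
    ext i j
    rw [Matrix.mul_apply, Fin.sum_univ_three]
    fin_cases i <;> fin_cases j <;> simp [h0.1, h0.2] <;> field_simp

end alg

section top

variable {k : Type} [NontriviallyNormedField k]

theorem nr_ent (i j : Fin 3) :
    Continuous fun p : k × k => (!![1, p.1, p.2; 0, 1, 0; 0, 0, 1] : Matrix _ _ k) i j := by
  fin_cases i <;> fin_cases j
  exacts [continuous_const, continuous_fst, continuous_snd, continuous_const, continuous_const,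
    continuous_const, continuous_const, continuous_const, continuous_const]

theorem nr_cont : Continuous fun p : k × k => nr p.1 p.2 := by
  refine continuous_induced_rng.2 ?_
  exact continuous_matrix fun i j => nr_ent i j

theorem nr_conj (w : kˣ) (x y : k) (N : ℕ) : (bw w ^ N)⁻¹ * nr x y * bw w ^ N =
    nr (((w : k) ^ N) ^ 3 * x) (((w : k) ^ N) ^ 3 * y) := by
  rw [← bw_pow, mul_assoc, nr_bw, inv_mul_cancel_left, Units.val_pow_eq_pow_val]

theorem pow3_tendsto {w : kˣ} (hw : ‖(w : k)‖ < 1) (x : k) :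
    Tendsto (fun N : ℕ => ((w : k) ^ N) ^ 3 * x) atTop (𝓝 0) := by
  have h2 : Tendsto (fun N : ℕ => (w : k) ^ N) atTop (𝓝 0) :=
    tendsto_pow_atTop_nhds_zero_of_norm_lt_one hw
  have h4 := (h2.pow 3).mul_const x
  rwa [zero_pow (by norm_num), zero_mul] at h4

theorem nr_tendsto0 : Tendsto (fun p : k × k => nr p.1 p.2) (𝓝 (0, 0)) (𝓝 1) := by
  have h8 := (nr_cont (k := k)).tendsto (0, 0)
  rwa [nr_zero] at h8

/-- The unipotent radical is contracted. -/
theorem nr_tendsto {w : kˣ} (hw : ‖(w : k)‖ < 1) (x y : k) :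
    Tendsto (fun N : ℕ => (bw w ^ N)⁻¹ * nr x y * bw w ^ N) atTop (𝓝 1) := by
  have h3 : Tendsto (fun N : ℕ => ((((w : k) ^ N) ^ 3 * x, ((w : k) ^ N) ^ 3 * y) : k × k))
      atTop (𝓝 (0, 0)) := (pow3_tendsto hw x).prodMk_nhds (pow3_tendsto hw y)
  exact ((nr_tendsto0 (k := k)).comp h3).congr fun N => (nr_conj w x y N).symm

end top

end Vale.Agent.P092.H142
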