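import Vale.Agent.P092.H142.Fam
import Vale.Agent.P092.H142.Par
import Vale.Agent.P092.H859.CLK

/-!
P092 (helper142), TEAM D, [D0-INST]: from the output of the engine at the base point `[e_0]`
(letters of H859/CLD) to the limits along all conjugates (`LimAt`).
-/

set_option linter.all false

open scoped InnerProductSpace ENNReal LinearAlgebra.Projectivization Pointwise
open Filter Topology ContinuousLinearMap MeasureTheory TopologicalSpace

namespace Vale.Agent.P092.H142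

open Vale.Agent.P092.SD Vale.Agent.P092.RC Vale.Agent.P092.H859.CL
open Vale.Agent.P092.H553 (ind ind_nonneg ind_le_one abs_ind_le ind_pos ind_neg)

section cj

variable {k : Type} [NontriviallyNormedField k] {G K : Type}
  [Group G] [NormedAddCommGroup K] [InnerProductSpace ℂ K] [CompleteSpace K]

/-- conjugation of a *-homomorphism by a unitary representation -/
noncomputable def cj (π : G →* (K →L[ℂ] K)) (hπ : ∀ g, adjoint (π g) = π g⁻¹) (g : G)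
    (E : CP k →⋆ₐ[ℂ] (K →L[ℂ] K)) : CP k →⋆ₐ[ℂ] (K →L[ℂ] K) where
  toFun f := π g * E f * π g⁻¹
  map_one' := by
    rw [map_one, mul_one, ← map_mul, mul_inv_cancel, map_one]
  map_mul' f h := by
    have h1 : π g⁻¹ * π g = 1 := by rw [← map_mul, inv_mul_cancel, map_one]
    rw [map_mul]
    calc π g * (E f * E h) * π g⁻¹ = π g * E f * (1 * (E h * π g⁻¹)) := by
          simp only [one_mul, mul_assoc]
      _ = π g * E f * (π g⁻¹ * π g * (E h * π g⁻¹)) := by rw [h1]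
      _ = _ := by simp only [mul_assoc]
  map_zero' := by rw [map_zero, mul_zero, zero_mul]
  map_add' f h := by rw [map_add, mul_add, add_mul]
  commutes' c := by
    have h2 : E (algebraMap ℂ (CP k) c) = algebraMap ℂ (K →L[ℂ] K) c := AlgHomClass.commutes E c
    have h3 : π g * π g⁻¹ = 1 := by rw [← map_mul, mul_inv_cancel, map_one]
    change π g * E (algebraMap ℂ (CP k) c) * π g⁻¹ = _
    rw [h2, Algebra.algebraMap_eq_smul_one, mul_smul_comm, mul_one, smul_mul_assoc, h3]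
  map_star' f := by
    rw [map_star, star_mul, star_mul]
    have h1 : star (π g⁻¹) = π g := by
      rw [star_eq_adjoint, hπ, inv_inv]
    have h2 : star (π g) = π g⁻¹ := by rw [star_eq_adjoint, hπ]
    rw [h1, h2, mul_assoc]

theorem cj_apply (π : G →* (K →L[ℂ] K)) (hπ : ∀ g, adjoint (π g) = π g⁻¹) (g : G)
    (E : CP k →⋆ₐ[ℂ] (K →L[ℂ] K)) (f : CP k) : cj π hπ g E f = π g * E f * π g⁻¹ := rfl

end cj

variable {k : Type} [NontriviallyNormedField k] [ProperSpace k] {Γ K : Type}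
  [Group Γ] [NormedAddCommGroup K] [InnerProductSpace ℂ K] [CompleteSpace K]

/-- The output of the engine at the base point. -/
structure EOut (w : kˣ) (π : G3 k →* (K →L[ℂ] K)) (lam : Γ →* (K →L[ℂ] K))
    (W : Set (K →L[ℂ] K)) (mp : (Γ → ℝ) → (K →L[ℂ] K)) (q : Γ →* G3 k) (G1 G2 : Γ → ℝ)
    (bp : Γ → PP k) (E : CP k →⋆ₐ[ℂ] (K →L[ℂ] K)) : Prop where
  lim : ∀ (f : CP k) (ξ : K), Tendsto (fun N : ℕ =>
    PC mp (fun g => π g) (bw w ^ N)⁻¹ (cfc G1 G2 bp f) ξ) atTop (𝓝 (E f ξ))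
  cm : ∀ f, Cm W (E f)
  cov : ∀ γ f, lam γ * E f * lam γ⁻¹ = E (act (q γ) f)
  con : ∀ n, Tendsto (fun N : ℕ => (bw w ^ N)⁻¹ * n * bw w ^ N) atTop (𝓝 1) →
    ∀ f, π n * E f = E f * π n
  cen : ∀ v, v * bw w = bw w * v → ∀ f, π v * E f = E f * π v
  /-- (LU2) for functions of the base point -/
  lu2 : ∀ (f : CP k) (v : G3 k) (ξ : K), Tendsto (fun N : ℕ =>
    ⟪π v (π (bw w ^ N)⁻¹ ξ), mc mp (cfc G1 G2 bp f) (π v (π (bw w ^ N)⁻¹ ξ))⟫_ℂ -
      ⟪π (bw w ^ N)⁻¹ ξ, mc mp (cfc G1 G2 bp f) (π (bw w ^ N)⁻¹ ξ)⟫_ℂ) atTop (𝓝 0)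
  /-- no finite and no regular mass -/
  ngl : ∀ (v : G3 k) (ξ : K) (ε : ℝ), 0 < ε → ∃ r, ∀ T, ∀ᶠ N : ℕ in atTop,
    ‖st mp (FF G1 G2 T ∪ BB G1 G2 r) (π v (π (bw w ^ N)⁻¹ ξ))‖ ≤ ε

/-- The geometric input at the level of the cut-offs. -/
def DomCut (q : Γ →* G3 k) (G1 G2 : Γ → ℝ) (bp : Γ → PP k) : Prop :=
  ∀ r, ∃ R : ℝ, ∀ T > 0, ∃ T' : ℝ, ∀ A : Set (PP k),
    cn G1 G2 bp A ⊆ {γ | NW R (q γ) ∧ Att T A (q γ)} ∪ (FF G1 G2 T' ∪ BB G1 G2 r)

variable {w : kˣ} {π : G3 k →* (K →L[ℂ] K)} {lam : Γ →* (K →L[ℂ] K)} {W : Set (K →L[ℂ] K)}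
  {mp : (Γ → ℝ) → (K →L[ℂ] K)} {q : Γ →* G3 k} {G1 G2 : Γ → ℝ} {bp : Γ → PP k}
  {Bd : Set K} {ms : G3 k → Set Γ → ℝ} {A : Subgroup (G3 k)}

/-- A bound for the complex multiplication operator. -/
theorem mc_cut (h : Fn mp) {F : Γ → ℂ} {C : ℝ} (hF : ∀ g, ‖F g‖ ≤ C) {S : Set Γ}
    (hS : ∀ g, F g ≠ 0 → g ∈ S) : mc mp F = mc mp F * st mp S := by
  have h1 : ∀ g, |(F g).re| ≤ C := fun g => (Complex.abs_re_le_norm _).trans (hF g)
  have h2 : ∀ g, |(F g).im| ≤ C := fun g => (Complex.abs_im_le_norm _).trans (hF g)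
  have e1 : mp (fun g => (F g).re) * st mp S = mp (fun g => (F g).re) := by
    rw [st, h.comm h1 (abs_ind_le _)]
    exact h.st_mul h1 (fun g hg => hS g (fun h0 => hg (by simp only [h0, Complex.zero_re])))
  have e2 : mp (fun g => (F g).im) * st mp S = mp (fun g => (F g).im) := by
    rw [st, h.comm h2 (abs_ind_le _)]
    exact h.st_mul h2 (fun g hg => hS g (fun h0 => hg (by simp only [h0, Complex.zero_im])))
  rw [mc, add_mul, smul_mul_assoc, e1, e2]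

/-- The norm of the complex multiplication operator. -/
theorem mc_nrm (h : Fn mp) {F : Γ → ℂ} {C : ℝ} (hC : 0 ≤ C) (hF : ∀ g, ‖F g‖ ≤ C) (ξ : K) :
    ‖mc mp F ξ‖ ≤ C * ‖ξ‖ := by
  have h1 : ∀ g, |(F g).re| ≤ C := fun g => (Complex.abs_re_le_norm _).trans (hF g)
  have h2 : ∀ g, |(F g).im| ≤ C := fun g => (Complex.abs_im_le_norm _).trans (hF g)
  obtain ⟨a, ha⟩ : ∃ a, a = mp (fun g => (F g).re) ξ := ⟨_, rfl⟩
  obtain ⟨b, hb⟩ : ∃ b, b = mp (fun g => (F g).im) ξ := ⟨_, rfl⟩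
  have e1 : ‖mc mp F ξ‖ ^ 2 = ‖a‖ ^ 2 + ‖b‖ ^ 2 := by
    have e2 : mc mp F ξ = a + Complex.I • b := by rw [ha, hb]; rfl
    rw [e2, @norm_add_sq ℂ, norm_smul, Complex.norm_I, one_mul, inner_smul_right]
    have e3 : (⟪a, b⟫_ℂ).im = 0 := by
      have e4 : ⟪a, b⟫_ℂ = ⟪b, a⟫_ℂ := by
        rw [ha, hb, h.inner_left h1, h.inner_left h2, ← h.mul_ap h1 h2, ← h.mul_ap h2 h1]
        congr 3
        funext g
        ring
      have e5 : ⟪a, b⟫_ℂ = (starRingEnd ℂ) ⟪a, b⟫_ℂ := by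
        conv_lhs => rw [e4]
        rw [inner_conj_symm]
      exact Complex.conj_eq_iff_im.1 e5.symm
    have e6 : RCLike.re (Complex.I * ⟪a, b⟫_ℂ) = 0 := by
      change (Complex.I * ⟪a, b⟫_ℂ).re = 0
      rw [Complex.mul_re, Complex.I_re, Complex.I_im, e3]
      ring
    rw [e6]
    ring
  have e7 : ‖a‖ ^ 2 + ‖b‖ ^ 2 ≤ C ^ 2 * ‖ξ‖ ^ 2 := by
    have p1 : ‖a‖ ^ 2 = (⟪ξ, mp (fun g => (F g).re * (F g).re) ξ⟫_ℂ).re := by
      rw [ha, h.inner_sq h1]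
    have p2 : ‖b‖ ^ 2 = (⟪ξ, mp (fun g => (F g).im * (F g).im) ξ⟫_ℂ).re := by
      rw [hb, h.inner_sq h2]
    have q1 : ∀ g, |(F g).re * (F g).re| ≤ C * C := fun g => by
      rw [abs_mul]
      exact mul_le_mul (h1 g) (h1 g) (abs_nonneg _) hC
    have q2 : ∀ g, |(F g).im * (F g).im| ≤ C * C := fun g => by
      rw [abs_mul]
      exact mul_le_mul (h2 g) (h2 g) (abs_nonneg _) hC
    have q3 : ∀ g : Γ, |C * C * (1 : ℝ)| ≤ C * C := fun g => by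
      rw [mul_one, abs_of_nonneg (by positivity)]
    rw [p1, p2, ← Complex.add_re, ← inner_add_right, ← h.add_ap q1 q2]
    refine (h.re_mono (C := C * C + C * C) (fun g => (abs_add_le _ _).trans
      (add_le_add (q1 g) (q2 g))) q3 (fun g => ?_) ξ).trans ?_
    · have := hF g
      rw [Complex.norm_eq_sqrt_sq_add_sq] at this
      have h3 := (Real.sqrt_le_left hC).1 this
      nlinarith
    · rw [h.smul_ap (C * C) (F := fun _ => 1) (C := 1) (fun g => by simp), h.one_ap,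
        inner_smul_right]
      rw [Complex.re_ofReal_mul]
      have : (⟪ξ, ξ⟫_ℂ).re = ‖ξ‖ ^ 2 := by
        rw [inner_self_eq_norm_sq_to_K]
        norm_cast
      rw [this]
      nlinarith
  refine abs_le_of_sq_le_sq' ?_ (by positivity) |>.2
  rw [e1, mul_pow]
  exact e7

theorem cfc_norm (f : CP k) (g : Γ) : ‖cfc G1 G2 bp f g‖ ≤ ‖f‖ := by
  rw [H859.CL.cfc, norm_mul]
  refine (mul_le_of_le_one_left (norm_nonneg _) ?_).trans (f.norm_coe_le_norm _)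
  rw [Complex.norm_real]
  exact abs_ind_le _ _

/-- The square of the norm of a cut-off. -/
theorem mc_sq (h : Fn mp) (u : CP k) (x : K) :
    ((‖mc mp (cfc G1 G2 bp u) x‖ ^ 2 : ℝ) : ℂ) =
      ⟪x, mc mp (cfc G1 G2 bp (star u * u : CP k)) x⟫_ℂ := by
  have hb : ∀ f : CP k, ∀ g, ‖cfc G1 G2 bp f g‖ ≤ ‖f‖ := fun f => cfc_norm f
  have e : cfc G1 G2 bp (star u * u : CP k) =
      fun g => (starRingEnd ℂ) (cfc G1 G2 bp u g) * cfc G1 G2 bp u g := by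
    funext g
    have h1 : ind (fun g => G2 g ≤ G1 g) g * ind (fun g => G2 g ≤ G1 g) g =
        ind (fun g => G2 g ≤ G1 g) g := by
      by_cases hg : G2 g ≤ G1 g
      · rw [ind_pos (P := fun g => G2 g ≤ G1 g) hg, one_mul]
      · rw [ind_neg (P := fun g => G2 g ≤ G1 g) hg, zero_mul]
    have h2 : ((ind (fun g => G2 g ≤ G1 g) g : ℝ) : ℂ) * (ind (fun g => G2 g ≤ G1 g) g : ℝ) =
        (ind (fun g => G2 g ≤ G1 g) g : ℝ) := by
      rw [← Complex.ofReal_mul, h1]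
    simp only [H859.CL.cfc, map_mul, Complex.conj_ofReal, ContinuousMap.mul_apply,
      ContinuousMap.star_apply, Complex.star_def]
    linear_combination (-((starRingEnd ℂ) (u (bp g)) * u (bp g))) * h2
  rw [e, mc_mul h (F := fun g => (starRingEnd ℂ) (cfc G1 G2 bp u g)) (C := ‖u‖)
    (fun g => by rw [RCLike.norm_conj]; exact hb u g) (hb u), ← mc_adj h (hb u)]
  change _ = ⟪x, adjoint (mc mp (cfc G1 G2 bp u)) (mc mp (cfc G1 G2 bp u) x)⟫_ℂ
  rw [adjoint_inner_right, inner_self_eq_norm_sq_to_K]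
  norm_cast

/-- The domination along a conjugate. -/
theorem dom_of (h : Fn mp) (hcut : DomCut q G1 G2 bp) {E : CP k →⋆ₐ[ℂ] (K →L[ℂ] K)}
    (hE : EOut w π lam W mp q G1 G2 bp E) (hπ : ∀ g, adjoint (π g) = π g⁻¹)
    (g : G3 k) (u : CP k) (A0 : Set (PP k)) (hu : tsupport u ⊆ A0) (ζ : K) {ε : ℝ}
    (hε : 0 < ε) :
    ∃ R : ℝ, ∀ T > 0, ∀ᶠ N : ℕ in atTop,
      ‖cj π hπ g E u ζ‖ ≤ ‖u‖ * ‖st mp {γ | NW R (q γ) ∧ Att T A0 (q γ)}
        (π (g * bw w ^ N * g⁻¹)⁻¹ ζ)‖ + ε := by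
  have hprj : Prj (st mp) := h.prj
  obtain ⟨F, hF⟩ : ∃ F : Γ → ℂ, F = cfc G1 G2 bp u := ⟨_, rfl⟩
  have hFn : ∀ g, ‖F g‖ ≤ ‖u‖ := fun g => by rw [hF]; exact cfc_norm u g
  have hiso : ∀ (v : G3 k) (x : K), ‖π v x‖ = ‖x‖ := by
    intro v x
    have h1 : ⟪π v x, π v x⟫_ℂ = ⟪x, x⟫_ℂ := by
      rw [← adjoint_inner_right, hπ]
      have h2 : π v⁻¹ (π v x) = x := by
        have h3 : π v⁻¹ * π v = 1 := by rw [← map_mul, inv_mul_cancel, map_one]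
        exact congrArg (fun T : K →L[ℂ] K => T x) h3
      rw [h2]
    rw [inner_self_eq_norm_sq_to_K, inner_self_eq_norm_sq_to_K] at h1
    have h4 : ‖π v x‖ ^ 2 = ‖x‖ ^ 2 := by exact_mod_cast h1
    exact (sq_eq_sq₀ (norm_nonneg _) (norm_nonneg _)).1 h4
  -- (LU2)
  have hsq : Tendsto (fun N : ℕ => ‖mc mp F (π g (π (bw w ^ N)⁻¹ (π g⁻¹ ζ)))‖ ^ 2 -
      ‖mc mp F (π (bw w ^ N)⁻¹ (π g⁻¹ ζ))‖ ^ 2) atTop (𝓝 0) := by
    have h1 := (Complex.continuous_re.tendsto _).comp (hE.lu2 (star u * u) g (π g⁻¹ ζ))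
    rw [Complex.zero_re] at h1
    refine h1.congr fun N => ?_
    simp only [Function.comp_apply]
    rw [← mc_sq h u, ← mc_sq h u, Complex.sub_re, Complex.ofReal_re, Complex.ofReal_re, ← hF]
  obtain ⟨r, hr⟩ := hE.ngl g (π g⁻¹ ζ) (ε / (4 * (‖u‖ + 1))) (by positivity)
  obtain ⟨R, hR⟩ := hcut r
  refine ⟨R, fun T hT => ?_⟩
  obtain ⟨T', hT'⟩ := hR T hT
  have hlim := hE.lim u (π g⁻¹ ζ)
  filter_upwards [hr T', (Metric.tendsto_nhds.mp hsq) ((ε / 4) ^ 2) (by positivity),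
    (Metric.tendsto_nhds.mp hlim) (ε / 4) (by positivity)] with N n1 n2 n3
  rw [dist_zero_right, Real.norm_eq_abs] at n2
  rw [dist_eq_norm] at n3
  -- the vector
  have e0 : π (g * bw w ^ N * g⁻¹)⁻¹ ζ = π g (π (bw w ^ N)⁻¹ (π g⁻¹ ζ)) := by
    have : (g * bw w ^ N * g⁻¹)⁻¹ = g * ((bw w ^ N)⁻¹ * g⁻¹) := by group
    rw [this, map_mul, map_mul]
    rfl
  rw [e0]
  obtain ⟨x, hx⟩ : ∃ x, x = π g (π (bw w ^ N)⁻¹ (π g⁻¹ ζ)) := ⟨_, rfl⟩
  rw [← hx] at n1 n2 ⊢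
  -- step 1
  have s1 : ‖cj π hπ g E u ζ‖ = ‖E u (π g⁻¹ ζ)‖ := by
    rw [cj_apply]
    exact hiso g _
  have s2 : ‖E u (π g⁻¹ ζ)‖ ≤
      ‖PC mp (fun g => π g) (bw w ^ N)⁻¹ (cfc G1 G2 bp u) (π g⁻¹ ζ)‖ + ε / 4 := by
    have h4 : E u (π g⁻¹ ζ) = PC mp (fun g => π g) (bw w ^ N)⁻¹ (cfc G1 G2 bp u) (π g⁻¹ ζ) -
      (PC mp (fun g => π g) (bw w ^ N)⁻¹ (cfc G1 G2 bp u) (π g⁻¹ ζ) - E u (π g⁻¹ ζ)) := by abel
    rw [h4]
    exact (norm_sub_le _ _).trans (by linarith)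
  have s3 : ‖PC mp (fun g => π g) (bw w ^ N)⁻¹ (cfc G1 G2 bp u) (π g⁻¹ ζ)‖ =
      ‖mc mp F (π (bw w ^ N)⁻¹ (π g⁻¹ ζ))‖ := by
    rw [← hF]
    exact hiso _ _
  have s4 : ‖mc mp F (π (bw w ^ N)⁻¹ (π g⁻¹ ζ))‖ ≤ ‖mc mp F x‖ + ε / 4 := by
    refine abs_le_of_sq_le_sq' ?_ (by positivity) |>.2
    have h5 := (abs_lt.1 n2).1
    have h6 := norm_nonneg (mc mp F x)
    nlinarith
  have s5 : ‖mc mp F x‖ ≤ ‖u‖ * ‖st mp (cn G1 G2 bp A0) x‖ := by
    have h5 : ∀ y, F y ≠ 0 → y ∈ cn G1 G2 bp A0 := by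
      intro y hy
      rw [hF, H859.CL.cfc] at hy
      refine ⟨?_, ?_⟩
      · by_contra h6
        rw [ind_neg (P := fun g => G2 g ≤ G1 g) h6, Complex.ofReal_zero, zero_mul] at hy
        exact hy rfl
      · refine hu (subset_tsupport _ ?_)
        intro h6
        rw [h6, mul_zero] at hy
        exact hy rfl
    rw [mc_cut h hFn h5]
    exact mc_nrm h (norm_nonneg _) hFn _
  have s6 : ‖st mp (cn G1 G2 bp A0) x‖ ≤ ‖st mp {γ | NW R (q γ) ∧ Att T A0 (q γ)} x‖ +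
      ε / (4 * (‖u‖ + 1)) := by
    refine (hprj.mono (hT' A0) x).trans ?_
    refine (hprj.norm_union_le _ _ x).trans ?_
    exact add_le_add_right n1 _
  have s7 : ‖u‖ * (ε / (4 * (‖u‖ + 1))) ≤ ε / 4 := by
    rw [mul_div_assoc', div_le_div_iff₀ (by positivity) (by norm_num)]
    have := norm_nonneg u
    nlinarith
  have s8 := mul_le_mul_of_nonneg_left s6 (norm_nonneg u)
  rw [mul_add] at s8
  rw [s1]
  linarith

/-- **The limits along all conjugates.** -/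
theorem limAt_of (hw : ‖(w : k)‖ < 1) (h : Fn mp) (hcut : DomCut q G1 G2 bp)
    {E : CP k →⋆ₐ[ℂ] (K →L[ℂ] K)}
    (hE : EOut w π lam W mp q G1 G2 bp E) (hπ : ∀ g, adjoint (π g) = π g⁻¹)
    (hcomm : ∀ g γ, π g * lam γ = lam γ * π g) (hWP : ∀ x ∈ W, ∀ g, π g * x * π g⁻¹ ∈ W) :
    LimAt w π lam W (st mp) q (fun g => cj π hπ g E) where
  cm := fun g f x hx => by
    have h1 : π g⁻¹ * x * π g ∈ W := by
      have := hWP x hx g⁻¹
      rwa [inv_inv] at this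
    have h2 := hE.cm f _ h1
    have h3 : π g * π g⁻¹ = 1 := by rw [← map_mul, mul_inv_cancel, map_one]
    have h4 : π g⁻¹ * π g = 1 := by rw [← map_mul, inv_mul_cancel, map_one]
    rw [cj_apply]
    calc π g * E f * π g⁻¹ * x = π g * (E f * (π g⁻¹ * x * π g)) * π g⁻¹ := by
          have e : x = x * (π g * π g⁻¹) := by rw [h3, mul_one]
          conv_lhs => rw [e]
          simp only [mul_assoc]
      _ = π g * ((π g⁻¹ * x * π g) * E f) * π g⁻¹ := by rw [h2]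
      _ = (π g * π g⁻¹) * x * (π g * E f * π g⁻¹) := by simp only [mul_assoc]
      _ = x * (π g * E f * π g⁻¹) := by rw [h3, one_mul]
  cov := fun γ g f => by
    rw [cj_apply, cj_apply, ← hE.cov]
    have h1 := hcomm g γ
    have h2 := hcomm g⁻¹ γ⁻¹
    calc lam γ * (π g * E f * π g⁻¹) * lam γ⁻¹ = (lam γ * π g) * E f * (π g⁻¹ * lam γ⁻¹) := by
          simp only [mul_assoc]
      _ = (π g * lam γ) * E f * (lam γ⁻¹ * π g⁻¹) := by rw [← h1, h2]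
      _ = _ := by simp only [mul_assoc]
  conj := fun v g f => by
    rw [cj_apply, cj_apply, mul_inv_rev, map_mul, map_mul]
    simp only [mul_assoc]
  par := fun g hg => by
    refine StarAlgHom.ext fun f => ?_
    rw [cj_apply, cj_apply]
    obtain ⟨v, x, y, hv, rfl⟩ := stab_dec hg w
    have h1 := hE.cen v hv f
    have h2 := hE.con (nr x y) (nr_tendsto hw x y) f
    have h3 : π (v * nr x y) * E f = E f * π (v * nr x y) := by
      rw [map_mul, mul_assoc, h2, ← mul_assoc, h1, mul_assoc]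
    rw [h3, mul_assoc, ← map_mul, mul_inv_cancel, inv_one, map_one, one_mul]
  dom := fun g u A0 _ hu ζ ε hε => dom_of h hcut hE hπ g u A0 hu ζ hε

end Vale.Agent.P092.H142
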