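import Vale.Agent.P092.H107.Nws

/-!
P092 (helper142), TEAM D, [D0-INST]: no finite and no regular mass on `R v (R w ξ)` along an
escaping filter, for every `v` (letters of H859/CLD and H107/Nws).
-/

set_option linter.all false

open scoped InnerProductSpace Pointwise
open Filter Topology ContinuousLinearMap TopologicalSpace

namespace Vale.Agent.P092.H142

open Vale.Agent.P092.H859.CL
open Vale.Agent.P092.H107 (LocAt)
open Vale.Agent.P092.H553 (ind ind_nonneg ind_le_one abs_ind_le ind_pos ind_neg)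

variable {Γ D K Y : Type} [Group Γ] [Group D] [NormedAddCommGroup K] [InnerProductSpace ℂ K]
  [CompleteSpace K] {m : Set Γ → (K →L[ℂ] K)} {R : D → (K →L[ℂ] K)} {Bd Bf : Set K}
  {ms : D → Set Γ → ℝ} {A : Subgroup D} {G1 G2 : Γ → ℝ} {bp : Γ → Y} {l l' : Filter D}

/-- No regular and no finite mass on `R v (R w ξ)`. -/
theorem ngl_shift (h : Sys m R Bd ms A G1 G2) (hfin : ∀ r, (FF G1 G2 r).Finite)
    (he : Esc m R Bd A l) (hsub : Bf ⊆ Bd)
    (hdense : Dense ((Submodule.span ℂ Bf : Submodule ℂ K) : Set K))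
    (hmap : ∀ v, ∀ ζ ∈ Bf, R v ζ ∈ Bf) (hloc : ∀ v, LocAt m (R v) Bf)
    (hgap : ∀ u : Γ, ∃ C, ∀ x, |G1 (x * u) - G1 x| ≤ C ∧ |G2 (x * u) - G2 x| ≤ C)
    (v : D) (ξ : K) {ε : ℝ} (hε : 0 < ε) :
    ∃ r, ∀ T, ∀ᶠ w in l, ‖m (FF G1 G2 T ∪ BB G1 G2 r) (R v (R w ξ))‖ ≤ ε := by
  -- vectors in the span
  obtain ⟨N, hN⟩ : ∃ N : Submodule ℂ K, ∀ ξ, ξ ∈ N ↔ ∀ ε : ℝ, 0 < ε →
      ∃ r, ∀ T, ∀ᶠ w in l, ‖m (FF G1 G2 T ∪ BB G1 G2 r) (R v (R w ξ))‖ ≤ ε := by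
    refine ⟨⟨⟨⟨{ξ | ∀ ε : ℝ, 0 < ε → ∃ r, ∀ T, ∀ᶠ w in l,
      ‖m (FF G1 G2 T ∪ BB G1 G2 r) (R v (R w ξ))‖ ≤ ε}, ?_⟩, ?_⟩, ?_⟩, fun ξ => Iff.rfl⟩
    · intro ξ η hξ hη ε hε
      obtain ⟨r1, hr1⟩ := hξ (ε / 2) (by positivity)
      obtain ⟨r2, hr2⟩ := hη (ε / 2) (by positivity)
      refine ⟨max r1 r2, fun T => ?_⟩
      filter_upwards [hr1 T, hr2 T] with w h1 h2
      have h3 := (h.prj.mono (Set.union_subset_union_right (FF G1 G2 T)
        (BB_mono (G1 := G1) (G2 := G2) (le_max_left r1 r2))) (R v (R w ξ))).trans h1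
      have h4 := (h.prj.mono (Set.union_subset_union_right (FF G1 G2 T)
        (BB_mono (G1 := G1) (G2 := G2) (le_max_right r1 r2))) (R v (R w η))).trans h2
      rw [map_add, map_add, map_add]
      exact (norm_add_le _ _).trans (by linarith)
    · intro ε hε
      refine ⟨0, fun T => Eventually.of_forall fun w => ?_⟩
      rw [map_zero, map_zero, map_zero, norm_zero]
      exact hε.le
    · intro c ξ hξ ε hε
      obtain ⟨r1, hr1⟩ := hξ (ε / (‖c‖ + 1)) (by positivity)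
      refine ⟨r1, fun T => ?_⟩
      filter_upwards [hr1 T] with w h1
      rw [map_smul, map_smul, map_smul, norm_smul]
      rw [le_div_iff₀ (by positivity)] at h1
      have := norm_nonneg (m (FF G1 G2 T ∪ BB G1 G2 r1) (R v (R w ξ)))
      nlinarith
  have hbd : ∀ ξ ∈ Bf, ξ ∈ N := by
    intro ξ hξ
    rw [hN]
    intro ε hε
    obtain ⟨S, X, hX, hS⟩ := hloc v (ε / 2) (by positivity)
    choose C hC using hgap
    obtain ⟨Cm, hCm⟩ : ∃ Cm : ℝ, ∀ u ∈ S, C u ≤ Cm := by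
      obtain ⟨b, hb⟩ := (S.image C).bddAbove
      exact ⟨b, fun u hu => hb (Finset.mem_coe.mpr (Finset.mem_image_of_mem C hu))⟩
    obtain ⟨M, hM⟩ : ∃ M : ℝ, M = ∑ u ∈ S, ‖X u‖ + 1 := ⟨_, rfl⟩
    have hM0 : 0 < M := by
      rw [hM]
      have : 0 ≤ ∑ u ∈ S, ‖X u‖ := Finset.sum_nonneg fun u _ => norm_nonneg _
      linarith
    obtain ⟨r, hr⟩ := h.nrv ξ (hsub hξ) (ε / (4 * M)) (by positivity)
    refine ⟨r + Cm, fun T => ?_⟩
    have h1 := h.prj.tendsto_finite (f := fun w => R w ξ) (l := l)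
      (fun g => he.esc' h g ξ) (hfin (T + Cm))
    filter_upwards [he.mem, (Metric.tendsto_nhds.mp h1) (ε / (4 * M)) (by positivity)] with w hw h2
    rw [dist_zero_right, norm_norm] at h2
    have h3 := hr w hw
    obtain ⟨ζ, hζ⟩ : ∃ ζ, ζ = R w ξ := ⟨_, rfl⟩
    have hζB : ζ ∈ Bf := by rw [hζ]; exact hmap _ _ hξ
    rw [← hζ] at h2 h3 ⊢
    have h4 : ‖m (FF G1 G2 (T + Cm) ∪ BB G1 G2 r) ζ‖ ≤ ε / (2 * M) := by
      have h5 := h.prj.norm_union_le (FF G1 G2 (T + Cm)) (BB G1 G2 r) ζ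
      have e1 : ε / (2 * M) = ε / (4 * M) + ε / (4 * M) := by field_simp; ring
      rw [e1]
      exact h5.trans (add_le_add h2.le h3)
    have c1 : ‖m (FF G1 G2 T ∪ BB G1 G2 (r + Cm)) (R v ζ) -
        m (FF G1 G2 T ∪ BB G1 G2 (r + Cm)) (∑ u ∈ S, X u ζ)‖ ≤ ε / 2 := by
      rw [← map_sub]
      exact (h.prj.norm_le _ _).trans (hS ζ hζB)
    have c2 : ‖m (FF G1 G2 T ∪ BB G1 G2 (r + Cm)) (∑ u ∈ S, X u ζ)‖ ≤ ε / 2 := by
      rw [map_sum]
      have e : ∀ u ∈ S, ‖m (FF G1 G2 T ∪ BB G1 G2 (r + Cm)) (X u ζ)‖ ≤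
          ‖X u‖ * (ε / (2 * M)) := by
        intro u hu
        have e1 : m (FF G1 G2 T ∪ BB G1 G2 (r + Cm)) (X u ζ) =
            X u (m {g | g * u ∈ FF G1 G2 T ∪ BB G1 G2 (r + Cm)} ζ) :=
          congrArg (fun T : K →L[ℂ] K => T ζ) (hX u hu _)
        rw [e1]
        refine ((X u).le_opNorm _).trans (mul_le_mul_of_nonneg_left ?_ (norm_nonneg _))
        refine le_trans (h.prj.mono ?_ ζ) h4
        intro g hg
        obtain ⟨k1, k2⟩ := hC u g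
        have k3 := hCm u hu
        obtain ⟨a1, a2⟩ := abs_le.mp k1
        obtain ⟨b1, b2⟩ := abs_le.mp k2
        rcases hg with ⟨p1, p2⟩ | ⟨p1, p2⟩
        · left
          exact ⟨by linarith, by linarith⟩
        · right
          exact ⟨by linarith, by linarith⟩
      refine (norm_sum_le_of_le S e).trans ?_
      rw [← Finset.sum_mul]
      calc (∑ u ∈ S, ‖X u‖) * (ε / (2 * M)) ≤ M * (ε / (2 * M)) := by
            refine mul_le_mul_of_nonneg_right ?_ (by positivity)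
            rw [hM]; linarith
        _ = ε / 2 := by field_simp
    have e0 : m (FF G1 G2 T ∪ BB G1 G2 (r + Cm)) (R v ζ) =
        (m (FF G1 G2 T ∪ BB G1 G2 (r + Cm)) (R v ζ) -
        m (FF G1 G2 T ∪ BB G1 G2 (r + Cm)) (∑ u ∈ S, X u ζ)) +
        m (FF G1 G2 T ∪ BB G1 G2 (r + Cm)) (∑ u ∈ S, X u ζ) := by abel
    rw [e0]
    exact (norm_add_le _ _).trans (by linarith)
  have hspan : Submodule.span ℂ Bf ≤ N := Submodule.span_le.mpr hbd
  obtain ⟨η, hη, hd⟩ := Metric.mem_closure_iff.mp (hdense ξ) (ε / 2) (by positivity)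
  obtain ⟨r, hr⟩ := (hN η).1 (hspan hη) (ε / 2) (by positivity)
  refine ⟨r, fun T => ?_⟩
  filter_upwards [hr T] with w h1
  have h2 : m (FF G1 G2 T ∪ BB G1 G2 r) (R v (R w ξ)) =
      m (FF G1 G2 T ∪ BB G1 G2 r) (R v (R w (ξ - η))) +
      m (FF G1 G2 T ∪ BB G1 G2 r) (R v (R w η)) := by
    rw [← map_add, ← map_add, ← map_add, sub_add_cancel]
  rw [h2]
  rw [dist_eq_norm] at hd
  have h3 : ‖m (FF G1 G2 T ∪ BB G1 G2 r) (R v (R w (ξ - η)))‖ ≤ ε / 2 :=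
    ((h.prj.norm_le _ _).trans ((h.rep.norm_le _ _).trans (h.rep.norm_le _ _))).trans
      hd.le
  exact (norm_add_le _ _).trans (by linarith)

end Vale.Agent.P092.H142
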