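import Vale.Agent.P092.H142.Asm
import Vale.Agent.P092.H142.Shf
import Vale.Agent.P092.H859.CLN
import Vale.Agent.P092.H776.Act

/-!
P092 (helper142), TEAM D, [D0-INST]: the engine (H859/CLN) gives `EOut` at the base point, hence the
limits `LimAt` along all conjugates. Abstract form: everything is in terms of the row data.
-/

set_option linter.all false

open scoped InnerProductSpace ENNReal LinearAlgebra.Projectivization Pointwise
open Filter Topology ContinuousLinearMap MeasureTheory TopologicalSpace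

namespace Vale.Agent.P092.H142

open Vale.Agent.P092.SD Vale.Agent.P092.RC Vale.Agent.P092.H859.CL
open Vale.Agent.P092.H107 (LocAt)

/-- (LU2): the norms of the cut-offs are asymptotically invariant. -/
def LU2 {Γ D K : Type} [Group Γ] [Group D] [NormedAddCommGroup K] [InnerProductSpace ℂ K]
    (mp : (Γ → ℝ) → (K →L[ℂ] K)) (R : D → (K →L[ℂ] K)) (G1 G2 : Γ → ℝ) (l : Filter D) : Prop :=
  ∀ (F : Γ → ℂ) (C : ℝ), (∀ g, ‖F g‖ ≤ C) → (∀ u, Neg G1 G2 fun g => F (g * u) - F g) →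
    ∀ (v : D) (ξ η : K), Tendsto (fun w => ⟪R v (R w η), mc mp F (R v (R w ξ))⟫_ℂ -
      ⟪R w η, mc mp F (R w ξ)⟫_ℂ) l (𝓝 0)

variable {k : Type} [NontriviallyNormedField k] [ProperSpace k] {Γ K : Type}
  [Group Γ] [NormedAddCommGroup K] [InnerProductSpace ℂ K] [CompleteSpace K]
  {w : kˣ} {π : G3 k →* (K →L[ℂ] K)} {lam : Γ →* (K →L[ℂ] K)} {W : Set (K →L[ℂ] K)}
  {mp : (Γ → ℝ) → (K →L[ℂ] K)} {q : Γ →* G3 k} {G1 G2 : Γ → ℝ} {bp : Γ → PP k}
  {Bd Bf : Set K} {ms : G3 k → Set Γ → ℝ}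

/-- From the output of the engine at `b = (bw w)⁻¹`. -/
theorem eout_of (hG : letI := MulAction.compHom (PP k) q; GeoF G1 G2 bp)
    {E : CP k →⋆ₐ[ℂ] (K →L[ℂ] K)}
    (hE : letI := MulAction.compHom (PP k) q
      EngOut mp (fun g => π g) (fun γ => lam γ) W (bw w)⁻¹ G1 G2 bp E)
    (hlu2 : LU2 mp (fun g => π g) G1 G2 (pw (bw w)⁻¹))
    (hngl : ∀ (v : G3 k) (ξ : K) (ε : ℝ), 0 < ε → ∃ r, ∀ T, ∀ᶠ b in pw (bw w)⁻¹,
      ‖st mp (FF G1 G2 T ∪ BB G1 G2 r) (π v (π b ξ))‖ ≤ ε) :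
    EOut w π lam W mp q G1 G2 bp E := by
  letI := MulAction.compHom (PP k) q
  have hpw : ∀ N : ℕ, ((bw w)⁻¹ : G3 k) ^ N = (bw w ^ N)⁻¹ := fun N => inv_pow _ _
  refine ⟨fun f ξ => ?_, fun f a ha => ?_, fun γ f => ?_, fun n hn f => ?_, fun v hv f => ?_,
    fun f v ξ => ?_, fun v ξ ε hε => ?_⟩
  · have h1 := tendsto_pw.1 (hE.lim f ξ)
    simpa only [hpw] using h1
  · exact (hE.cm a ha f).symm
  · exact hE.cov γ f (act (q γ) f) ((H776.Act.compHom_iff q γ f _).2 rfl)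
  · refine hE.contr n ?_ f
    refine hn.congr fun N => ?_
    rw [hpw, inv_inv]
  · refine hE.cent v ?_ f
    have h1 : Commute v (bw w) := hv
    exact h1.inv_right.eq.symm
  · have hb : ∀ g, ‖H859.CL.cfc G1 G2 bp f g‖ ≤ ‖f‖ := fun g => cfc_norm f g
    have h1 := tendsto_pw.1 (hlu2 (H859.CL.cfc G1 G2 bp f) ‖f‖ hb (fun u => neg_right hG u f)
      v ξ ξ)
    simpa only [hpw] using h1
  · obtain ⟨r, hr⟩ := hngl v ξ ε hε
    refine ⟨r, fun T => ?_⟩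
    have h1 := hr T
    rw [pw, Filter.eventually_map] at h1
    filter_upwards [h1] with N hN
    rwa [hpw] at hN

/-- **Engine to the limits along all conjugates.** -/
theorem limAt_eng (hw : ‖(w : k)‖ < 1)
    (h : SysF mp (fun g => π g) Bd ms (Subgroup.zpowers (bw w)⁻¹) G1 G2)
    (hL : Leg mp (fun g => π g) (fun γ => lam γ) W)
    (hG : letI := MulAction.compHom (PP k) q; GeoF G1 G2 bp)
    (hS : Slow mp (fun g => π g) Bd)
    (he : Esc (st mp) (fun g => π g) Bd (Subgroup.zpowers (bw w)⁻¹) (pw (bw w)⁻¹))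
    (hlu : LU1 mp (fun g => π g) G1 G2 (pw (bw w)⁻¹))
    (hlu2 : LU2 mp (fun g => π g) G1 G2 (pw (bw w)⁻¹))
    (hfu : Full (st mp) (fun g => π g) G1 G2 (pw (bw w)⁻¹))
    (hsub : Bf ⊆ Bd) (hdense : Dense ((Submodule.span ℂ Bf : Submodule ℂ K) : Set K))
    (hmap : ∀ v, ∀ ζ ∈ Bf, π v ζ ∈ Bf) (hloc : ∀ v, LocAt (st mp) (π v) Bf)
    (hcut : DomCut q G1 G2 bp) (hπ : ∀ g, adjoint (π g) = π g⁻¹) :
    ∃ E : CP k →⋆ₐ[ℂ] (K →L[ℂ] K),
      LimAt w π lam W (st mp) q (fun g => cj π hπ g E) := by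
  letI := MulAction.compHom (PP k) q
  obtain ⟨E, hE⟩ := engine h hL hG hS (fun g ξ hξ => tendsto_pw.1 (he.esc g ξ hξ)) hlu hfu
  refine ⟨E, limAt_of hw h.fn hcut (eout_of hG hE hlu2 fun v ξ ε hε => ?_) hπ hL.comm
    (fun x hx g => hL.WP x hx g)⟩
  refine ngl_shift h.sys hG.fin he hsub hdense hmap hloc (fun u => ?_) v ξ hε
  obtain ⟨C, hC⟩ := hG.gap 1 u
  exact ⟨C, fun x => by have := hC x; rwa [one_mul] at this⟩

end Vale.Agent.P092.H142
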