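import Vale.Agent.P092.SD.Defs

/-!
P092 (helper142), TEAM D, [D0-INST]: from the limits along the conjugates `g b^N g⁻¹` to the family
`E a`, `a` a point of the plane (structure `SD.EFam`).
-/

set_option linter.all false

open scoped InnerProductSpace ENNReal LinearAlgebra.Projectivization
open Filter Topology ContinuousLinearMap MeasureTheory TopologicalSpace

namespace Vale.Agent.P092.H142

open Vale.Agent.P092.SD Vale.Agent.P092.RC

section trans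

variable {k : Type} [Field k]

/-- `SL_3(k)` is transitive on the points. -/
theorem trans_pt (a : PP k) : ∃ g : G3 k, g • ept k 0 = a := by
  classical
  induction a using Projectivization.ind with
  | h v hv =>
    obtain ⟨i, hi⟩ : ∃ i, v i ≠ 0 := by
      by_contra h
      push Not at h
      exact hv (funext h)
    -- a matrix of determinant one with first column `v`
    obtain ⟨M, hM, hdet⟩ : ∃ M : Matrix (Fin 3) (Fin 3) k, (∀ j, M j 0 = v j) ∧ M.det = 1 := by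
      fin_cases i
      · refine ⟨!![v 0, 0, 0; v 1, (v 0)⁻¹, 0; v 2, 0, 1], ?_, ?_⟩
        · intro j; fin_cases j <;> simp
        · have h0 : v 0 ≠ 0 := hi
          simp [Matrix.det_fin_three, h0]
      · refine ⟨!![v 0, -(v 1)⁻¹, 0; v 1, 0, 0; v 2, 0, 1], ?_, ?_⟩
        · intro j; fin_cases j <;> simp
        · have h0 : v 1 ≠ 0 := hi
          simp [Matrix.det_fin_three, h0]
      · refine ⟨!![v 0, 0, -(v 2)⁻¹; v 1, 1, 0; v 2, 0, 0], ?_, ?_⟩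
        · intro j; fin_cases j <;> simp
        · have h0 : v 2 ≠ 0 := hi
          simp [Matrix.det_fin_three, h0]
    obtain ⟨g, hg⟩ : ∃ g : G3 k, g.1 = M := ⟨⟨M, hdet⟩, rfl⟩
    refine ⟨g, ?_⟩
    have h1 : g • (Pi.single 0 1 : Fin 3 → k) = v := by
      change g.1.mulVec (Pi.single 0 1) = v
      rw [hg, Matrix.mulVec_single_one]
      funext j
      exact hM j
    refine (Projectivization.smul_mk g _).trans ?_
    congr 1

end trans

variable {k : Type} [NontriviallyNormedField k] [ProperSpace k] {Γ K : Type}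
  [Group Γ] [NormedAddCommGroup K] [InnerProductSpace ℂ K] [CompleteSpace K]

/-- The limits along `g b^N g⁻¹`, `g` in the source group. -/
structure LimAt (w : kˣ) (π : G3 k →* (K →L[ℂ] K)) (lam : Γ →* (K →L[ℂ] K))
    (W : Set (K →L[ℂ] K)) (m : Set Γ → (K →L[ℂ] K)) (q : Γ →* G3 k)
    (E₀ : G3 k → (CP k →⋆ₐ[ℂ] (K →L[ℂ] K))) : Prop where
  cm : ∀ g f, Cm W (E₀ g f)
  cov : ∀ γ g f, lam γ * E₀ g f * lam γ⁻¹ = E₀ g (act (q γ) f)
  conj : ∀ v g f, π v * E₀ g f * π v⁻¹ = E₀ (v * g) f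
  par : ∀ g : G3 k, g • ept k 0 = ept k 0 → E₀ g = E₀ 1
  dom : ∀ (g : G3 k) (u : CP k) (A : Set (PP k)), IsOpen A → tsupport u ⊆ A → ∀ ζ : K, ∀ ε > 0,
    ∃ R : ℝ, ∀ T > 0, ∀ᶠ N : ℕ in atTop,
      ‖E₀ g u ζ‖ ≤
        ‖u‖ * ‖m {γ | NW R (q γ) ∧ Att T A (q γ)} (π (g * bw w ^ N * g⁻¹)⁻¹ ζ)‖ + ε

/-- The limits depend only on the point. -/
theorem LimAt.eq {w : kˣ} {π : G3 k →* (K →L[ℂ] K)} {lam : Γ →* (K →L[ℂ] K)}
    {W : Set (K →L[ℂ] K)} {m : Set Γ → (K →L[ℂ] K)} {q : Γ →* G3 k}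
    {E₀ : G3 k → (CP k →⋆ₐ[ℂ] (K →L[ℂ] K))} (h : LimAt w π lam W m q E₀) {g g' : G3 k}
    (hg : g • ept k 0 = g' • ept k 0) : E₀ g = E₀ g' := by
  have h1 : (g'⁻¹ * g) • ept k 0 = ept k 0 := by
    rw [mul_smul, hg, inv_smul_smul]
  have h2 := h.par _ h1
  have h3 : ∀ f, E₀ (g' * (g'⁻¹ * g)) f = E₀ (g' * 1) f := by
    intro f
    rw [← h.conj g' (g'⁻¹ * g), ← h.conj g' 1, h2]
  refine StarAlgHom.ext fun f => ?_
  have h4 := h3 f
  rwa [mul_inv_cancel_left, mul_one] at h4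

/-- The family of the boundary calculi. -/
noncomputable def famE (E₀ : G3 k → (CP k →⋆ₐ[ℂ] (K →L[ℂ] K))) (a : PP k) :
    CP k →⋆ₐ[ℂ] (K →L[ℂ] K) := E₀ (trans_pt a).choose

theorem LimAt.fam_eq {w : kˣ} {π : G3 k →* (K →L[ℂ] K)} {lam : Γ →* (K →L[ℂ] K)}
    {W : Set (K →L[ℂ] K)} {m : Set Γ → (K →L[ℂ] K)} {q : Γ →* G3 k}
    {E₀ : G3 k → (CP k →⋆ₐ[ℂ] (K →L[ℂ] K))} (h : LimAt w π lam W m q E₀) (g : G3 k) :
    famE E₀ (g • ept k 0) = E₀ g :=
  h.eq (trans_pt (g • ept k 0)).choose_spec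

/-- **Assembly.** -/
theorem LimAt.efam {w : kˣ} {π : G3 k →* (K →L[ℂ] K)} {lam : Γ →* (K →L[ℂ] K)}
    {W : Set (K →L[ℂ] K)} {m : Set Γ → (K →L[ℂ] K)} {q : Γ →* G3 k}
    {E₀ : G3 k → (CP k →⋆ₐ[ℂ] (K →L[ℂ] K))} (h : LimAt w π lam W m q E₀)
    (hagr : ∀ a b, a ≠ b → ∀ ξ, (∀ f, famE E₀ a f ξ = famE E₀ b f ξ) → ξ = 0) :
    EFam w π lam W m q (famE E₀) where
  cm := fun a f => h.cm _ f
  cov := fun γ a f => h.cov γ _ f
  pcov := fun g a f => by
    obtain ⟨v, rfl⟩ := trans_pt a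
    rw [h.fam_eq, ← mul_smul, h.fam_eq, h.conj]
  dom := fun g u A hA hu ζ ε hε => by
    rw [h.fam_eq]
    exact h.dom g u A hA hu ζ ε hε
  agr := hagr

end Vale.Agent.P092.H142
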