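import Vale.Agent.P092.RC.Pict
import Vale.Agent.P092.H103.PicI
import Vale.Agent.P092.H776.Leg1
import Vale.Agent.P092.SD.Flip

/-!
P092 (helper142), TEAM D, [D0-INST]: the row picture over a lattice `Γ` of `SL_3(k)` and the unitary
onto the first leg of `H34/PicD`.
-/

set_option linter.all false

open scoped InnerProductSpace ENNReal
open Filter Topology ContinuousLinearMap MeasureTheory TopologicalSpace

namespace Vale.Agent.P092.H142.Row

open Vale.Agent.P092.SR Vale.Agent.P092.H160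
open Vale.Agent.P092.SD (G3)
open Vale.Agent.P092.RC (VR arep_VR VR_one uR uR_lx₁ uR_lx₂ uR_ep uR_V JC cj_JC_cst cj_JC_pi
  cj_JC_lam₁ cj_JC_lam₂ cj_JC_ind JC_Om Tw Pic KK pic lam₁ lam₂ XX Om)
open Vale.Agent.P092.H432 (lx ep mp ARep lx_dl lx_ep dl_eq_lx)

section fibre

variable {Γ Λ : Type} [Group Γ] [Group Λ] {α : Γ →* (Ell2 Λ →L[ℂ] Ell2 Λ)} (hα : Frame α)

/-- the row representation as a homomorphism -/
noncomputable def VRh : Γ →* (Ell2 ((Γ × Γ) × Unit) →L[ℂ] Ell2 ((Γ × Γ) × Unit)) where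
  toFun := VR hα
  map_one' := VR_one hα
  map_mul' := (arep_VR hα).mul

theorem adj_VRh (v : Γ) : adjoint (VRh hα v) = VRh hα v⁻¹ := (arep_VR hα).adj v

theorem uR_dl (γ s : Γ) (i : Unit) :
    uR hα (dl ((γ, s), i)) = RR₁ α γ (RR₂ α s (dl 1)) := by
  have h1 : (dl ((γ, s), i) : Ell2 ((Γ × Γ) × Unit)) =
      lx ((γ, (1 : Γ)) : Γ × Γ) (lx (((1 : Γ), s) : Γ × Γ) (ep i)) := by
    rw [lx_ep, lx_dl, Prod.mk_mul_mk, mul_one, one_mul]
  rw [h1, uR_lx₁, uR_lx₂, uR_ep]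
  rfl

open scoped Classical in
theorem uR_m0 (S : Set Γ) (ξ : Ell2 ((Γ × Γ) × Unit)) :
    uR hα (mp Unit (fun x : Γ × Γ => H553.ind (fun g => g ∈ S) x.1) ξ) =
      H368.m0 (H103.bF₁ hα) Prod.fst S (uR hα ξ) := by
  have h1 : (uR hα : Ell2 ((Γ × Γ) × Unit) →L[ℂ] Ell2 (Λ × Λ)) ∘L
      (mp Unit (fun x : Γ × Γ => H553.ind (fun g => g ∈ S) x.1)) =
      H368.m0 (H103.bF₁ hα) Prod.fst S ∘L
        (uR hα : Ell2 ((Γ × Γ) × Unit) →L[ℂ] Ell2 (Λ × Λ)) := by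
    apply op_ext
    rintro ⟨⟨γ, s⟩, i⟩
    change uR hα (mp Unit (fun x : Γ × Γ => H553.ind (fun g => g ∈ S) x.1) (dl ((γ, s), i))) =
      H368.m0 (H103.bF₁ hα) Prod.fst S (uR hα (dl ((γ, s), i)))
    have h2 : mp Unit (fun x : Γ × Γ => H553.ind (fun g => g ∈ S) x.1) (dl ((γ, s), i)) =
        ((H553.ind (fun g => g ∈ S) γ : ℝ) : ℂ) • (dl ((γ, s), i) : Ell2 ((Γ × Γ) × Unit)) := by
      ext x
      rw [mp, H553.mo_apply (F := fun x : (Γ × Γ) × Unit => H553.ind (fun g => g ∈ S) x.1.1)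
        (C := 1) (fun x => H553.abs_ind_le _ _), lp.coeFn_smul, Pi.smul_apply, smul_eq_mul]
      by_cases hx : x = ((γ, s), i)
      · rw [hx]
      · rw [dl_apply, if_neg (fun h => hx h), mul_zero, mul_zero]
    rw [h2, map_smul, uR_dl, ← H103.bF₁_ap hα]
    by_cases hγ : γ ∈ S
    · rw [H368.m0_mem (b := H103.bF₁ hα) (f := Prod.fst) (i := (γ, s)) hγ,
        H553.ind_pos (P := fun g => g ∈ S) hγ, Complex.ofReal_one, one_smul]
    · rw [H368.m0_notMem (b := H103.bF₁ hα) (f := Prod.fst) (i := (γ, s)) hγ,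
        H553.ind_neg (P := fun g => g ∈ S) hγ, Complex.ofReal_zero, zero_smul]
  exact congrArg (fun T : Ell2 ((Γ × Γ) × Unit) →L[ℂ] Ell2 (Λ × Λ) => T ξ) h1

end fibre

section con

variable {k : Type} [NontriviallyNormedField k] [LocallyCompactSpace (G3 k)]
  [SecondCountableTopology (G3 k)] [MeasurableSpace (G3 k)] [BorelSpace (G3 k)]
  {Γ : Subgroup (G3 k)} [DiscreteTopology Γ] [Countable Γ] [MeasurableSpace (G3 k ⧸ Γ)]
  [BorelSpace (G3 k ⧸ Γ)] {ν : Measure (G3 k ⧸ Γ)} [IsProbabilityMeasure ν]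
  (hν : ∀ g : G3 k, ν.map (fun x => g • x) = ν)
  {Λ : Type} [Group Λ] {α : Γ →* (Ell2 Λ →L[ℂ] Ell2 Λ)} (hα : Frame α)

/-- the space of the row picture -/
abbrev KR (ν : Measure (G3 k ⧸ Γ)) : Type := Lp (Ell2 ((Γ × Γ) × Unit)) 2 ν

/-- the induced representation of the row picture -/
noncomputable def piR : G3 k →* (KR ν →L[ℂ] KR ν) := H103.irep hν (adj_VRh hα)

theorem piR_eq (g : G3 k) :
    piR hν hα g = (H790.Ri (H85.cdat ν hν) (VR hα) g : KR ν →L[ℂ] KR ν) := rfl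

/-- the target of the row picture -/
noncomputable def lamR (ν : Measure (G3 k ⧸ Γ)) [IsProbabilityMeasure ν] :
    Γ →* (KR ν →L[ℂ] KR ν) where
  toFun γ := H790.lxt ν (γ, (1 : Γ))
  map_one' := H790.lxt_one
  map_mul' γ γ' := by rw [← H790.lxt_mul, Prod.mk_mul_mk, one_mul]

/-- the multiplication operators of the row picture -/
noncomputable def mpR (hν : ∀ g : G3 k, ν.map (fun x => g • x) = ν) (F : Γ → ℝ) :
    KR ν →L[ℂ] KR ν := (H538.fst (H790.baseL (H85.cdat ν hν).μ (Γ × Γ) Unit)).mp F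

/-- the coefficients of the row picture -/
def WR (hν : ∀ g : G3 k, ν.map (fun x => g • x) = ν) : Set (KR ν →L[ℂ] KR ν) :=
  H776.Leg1.WL (H85.cdat ν hν) Γ Γ Unit

/-- the vector of the row picture -/
noncomputable def OmR (ν : Measure (G3 k ⧸ Γ)) [IsProbabilityMeasure ν] : KR ν :=
  H790.ept ν ()

/-- the unitary -/
noncomputable def uu : KR ν ≃ₗᵢ[ℂ] KK ν Λ := JC (m := 2) hν hα

/-- **The row picture is the first leg.** -/
theorem tw_row : Tw (uu hν hα) (piR hν hα) (lamR ν) (WR hν) (OmR ν) (pic hν hα) (lam₁ ν α)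
    (XX ν Λ ∪ Set.range (lam₂ ν α)) (Om ν Λ) where
  pi g := (cj_JC_pi (m := 2) hν hα g).symm
  lam γ := (cj_JC_lam₁ (m := 2) hν hα γ).symm
  W := by
    ext T
    constructor
    · rintro (⟨S, hS, rfl⟩ | ⟨g, rfl⟩)
      · exact ⟨_, Or.inl ⟨S, hS, rfl⟩, cj_JC_ind (m := 2) hν hα hS⟩
      · exact ⟨_, Or.inr ⟨g, rfl⟩, cj_JC_lam₂ (m := 2) hν hα g⟩
    · rintro ⟨_, (⟨S, hS, rfl⟩ | ⟨g, rfl⟩), rfl⟩
      · exact Or.inl ⟨S, hS, cj_JC_ind (m := 2) hν hα hS⟩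
      · exact Or.inr ⟨g, (cj_JC_lam₂ (m := 2) hν hα g).symm⟩
  Om := (JC_Om (m := 2) hν hα ()).symm

/-- The multiplication operators correspond. -/
theorem cj_mS (S : Set Γ) :
    RC.cj (uu hν hα) (H859.CL.st (mpR hν) S) = H103.mS₁ ν hα S :=
  cj_JC_cst (m := 2) hν hα (B := H368.m0 (H103.bF₁ hα) Prod.fst S) (uR_m0 hα S)

end con

section symm

variable {G Γ K K' : Type} [Group G] [TopologicalSpace G] [Group Γ]
  [NormedAddCommGroup K] [InnerProductSpace ℂ K] [CompleteSpace K]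
  [NormedAddCommGroup K'] [InnerProductSpace ℂ K'] [CompleteSpace K']
  {u : K ≃ₗᵢ[ℂ] K'} {π : G →* (K →L[ℂ] K)} {lam : Γ →* (K →L[ℂ] K)}
    {W : Set (K →L[ℂ] K)} {Ω : K} {π' : G →* (K' →L[ℂ] K')} {lam' : Γ →* (K' →L[ℂ] K')}
    {W' : Set (K' →L[ℂ] K')} {Ω' : K'}

theorem cj_symm (T : K →L[ℂ] K) : RC.cj u.symm (RC.cj u T) = T := by
  ext ξ
  obtain ⟨η, rfl⟩ := u.symm.surjective ξ
  rw [RC.cj_ap]
  obtain ⟨ζ, rfl⟩ := u.surjective η
  rw [RC.cj_ap, u.symm_apply_apply, u.symm_apply_apply]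

theorem tw_symm (t : Tw u π lam W Ω π' lam' W' Ω') : Tw u.symm π' lam' W' Ω' π lam W Ω where
  pi g := by rw [t.pi, cj_symm]
  lam γ := by rw [t.lam, cj_symm]
  W := by
    rw [t.W, ← Set.image_comp]
    have : (RC.cj u.symm : (K' →L[ℂ] K') → (K →L[ℂ] K)) ∘ (RC.cj u) = id := by
      funext T
      exact cj_symm T
    rw [this, Set.image_id]
  Om := by rw [t.Om, u.symm_apply_apply]

end symm

end Vale.Agent.P092.H142.Row
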